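import Vale.Agent.P126.MathlibUsed

/-!
# P126: the cube
-/

namespace Vale.Agent.P126

/-- The cube `[-ρ, ρ]ⁿ`, i.e. the ball of radius `ρ` of the sup norm. -/
def cube (n : ℕ) (ρ : ℝ) : Set (EuclideanSpace ℝ (Fin n)) :=
  {x | ∀ i, |x i| ≤ ρ}

end Vale.Agent.P126
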